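import Vale.Agent.P281.H713.TL.Defs

/-! P281, theorem MFS (pairs `(X, Δ)` with a Mori fibre space): definitions of the final statement. -/

open scoped Manifold ContDiff Topology ComplexOrder
open Set Filter Vale.Agent.P281 Vale.Agent.P272.K Vale.Agent.P281.H713

noncomputable section

namespace Vale.Agent.P281.H368.MFS

section

variable {n : ℕ} {X : Type} [TopologicalSpace X] [ChartedSpace (Cm n) X]

/-- `θ` is a smooth closed semipositive `(1,1)`-form on `X`, given by its coefficient matrices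
`(θ_{i j̄})` in the charts of `X` (for instance, the pull-back of a Kähler form by a holomorphic
map). -/
structure IsSemiPos (θ : Chart n X → Cm n → Matrix (Fin n) (Fin n) ℂ) : Prop where
  smooth : ∀ e x, At e x → ∀ i j, ContDiffAt ℝ ∞ (fun z => θ e z i j) (e x)
  posSemidef : ∀ e x, At e x → (θ e (e x)).PosSemidef
  change : ∀ e e' x, At e x → At e' x →
    θ e (e x) = (jacM e e' x).transpose * θ e' (e' x) * (jacM e e' x).map (starRingEnd ℂ)
  closed : ∀ e x, At e x → ∀ i j k,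
    dz k (fun z => θ e z i j) (e x) = dz i (fun z => θ e z k j) (e x)

/-- `w` belongs to the kernel of the Hermitian form with matrix `A`. -/
def InKer {n : ℕ} (A : Matrix (Fin n) (Fin n) ℂ) (w : Cm n) : Prop := ∀ j, ∑ i, w i * A i j = 0

/-- The Jacobian matrix at `t` of the map `ι : F → X` in the charts `e` and `E` of `F` and `X`. -/
def jacI {n d : ℕ} {X F : Type} [TopologicalSpace X] [TopologicalSpace F] (ι : F → X)
    (e : Chart d F) (E : Chart n X) (t : F) : Matrix (Fin n) (Fin d) ℂ :=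
  Matrix.of fun p i => dz i (fun z => E (ι (e.symm z)) p) (e t)

/-- The pull-back of the form `α` by the holomorphic map `ι`. -/
def pull {d : ℕ} {F : Type} [TopologicalSpace F] (ι : F → X)
    (α : Chart n X → Cm n → Matrix (Fin n) (Fin n) ℂ) :
    Chart d F → Cm d → Matrix (Fin d) (Fin d) ℂ := fun e z =>
  (jacI ι e (chartAt (Cm n) (ι (e.symm z))) (e.symm z)).transpose *
    α (chartAt (Cm n) (ι (e.symm z))) (chartAt (Cm n) (ι (e.symm z)) (ι (e.symm z))) *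
    (jacI ι e (chartAt (Cm n) (ι (e.symm z))) (e.symm z)).map (starRingEnd ℂ)

/-- At the point `z` of the smooth hypersurface `g = 0`, some tangent vector `w ≠ 0` of `g = 0` is in
the kernels of `α` and `θ` (`g = 0` is contracted). -/
def ConAt (n : ℕ) {X : Type} [TopologicalSpace X] [ChartedSpace (Cm n) X] (g : X → ℂ)
    (α θ : Chart n X → Cm n → Matrix (Fin n) (Fin n) ℂ) (z : X) : Prop :=
  ∃ w : Cm n, w ≠ 0 ∧ J.dif (Cm n) g z w = 0 ∧
    InKer (α (chartAt (Cm n) z) (chartAt (Cm n) z z)) w ∧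
    InKer (θ (chartAt (Cm n) z) (chartAt (Cm n) z z)) w

/-- At the point `z`, the rank of the restriction of `θ` to the hypersurface `g = 0` is less than
`ν`. -/
def SmallAt (n ν : ℕ) {X : Type} [TopologicalSpace X] [ChartedSpace (Cm n) X] (g : X → ℂ)
    (θ : Chart n X → Cm n → Matrix (Fin n) (Fin n) ℂ) (z : X) : Prop :=
  ∃ K : Submodule ℂ (Cm n), n ≤ ν + Module.finrank ℂ K ∧
    ∀ w ∈ K, J.dif (Cm n) g z w = 0 ∧ InKer (θ (chartAt (Cm n) z) (chartAt (Cm n) z z)) w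

/-- `ι : F → X` is holomorphic.  The point `ι s` of the smooth hypersurface `g = 0` is a limit of
points `ι s'` of this hypersurface where it is contracted and `θ` has rank `ν`. -/
def ConFib (n ν : ℕ) {X F : Type} [TopologicalSpace X] [ChartedSpace (Cm n) X]
    [TopologicalSpace F] (ι : F → X) (g : X → ℂ)
    (α θ : Chart n X → Cm n → Matrix (Fin n) (Fin n) ℂ) (s : F) : Prop :=
  ∃ᶠ s' in 𝓝 s, g (ι s') = 0 ∧ ConAt n g α θ (ι s') ∧
    (θ (chartAt (Cm n) (ι s')) (chartAt (Cm n) (ι s') (ι s'))).rank = ν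

/-- Near `x`, `W = |∏ g_i ^ a_i|² exp (m u) / |∏ e_D ^ k(D)|²` in the coordinates of `chartAt x`, where
`W` is (the `m`-th power of) a singular volume form, the hypersurfaces `g_i = 0` are smooth, the `e_D`
are local equations of the divisors `D` with `k D ≠ 0`, and `i∂∂̄ u = θ - α`.  Thus `m K_X + ∑ k(D) D`
is numerically `m (θ - α) + N`, where `N` is locally the divisor `∑ a_i {g_i = 0}`. -/
structure VolLoc (n m : ℕ) {X κ : Type} [TopologicalSpace X] [ChartedSpace (Cm n) X]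
    (eqn : κ → X → (X → ℂ) → Prop) (k : κ → ℕ) (W : X → ℝ)
    (α θ : Chart n X → Cm n → Matrix (Fin n) (Fin n) ℂ) (x : X) {r : ℕ} (g : Fin r → X → ℂ)
    (a : Fin r → ℕ) : Prop where
  holg : ∀ i, J.HolAt (Cm n) (g i) x ∧ J.dif (Cm n) (g i) x ≠ 0
  loc : ∃ (T : Finset κ) (e : κ → X → ℂ) (u : X → ℝ), (∀ D, k D ≠ 0 → D ∈ T) ∧
    (∀ D ∈ T, eqn D x (e D)) ∧
    (∀ c : Chart n X, At c x → ContDiffAt ℝ ∞ (fun z => u (c.symm z)) (c x)) ∧
    ∀ᶠ z in 𝓝 x, (∀ c : Chart n X, At c z →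
        θ c (c z) - α c (c z) = cHess (fun w => u (c.symm w)) (c z)) ∧
      (∏ D ∈ T, e D z ^ k D ≠ 0 →
        W z * ‖∏ D ∈ T, e D z ^ k D‖ ^ 2 = ‖∏ i, g i z ^ a i‖ ^ 2 * Real.exp (m * u z) *
          ‖ContinuousLinearMap.det (mfderiv 𝓘(ℂ, Cm n) 𝓘(ℂ, Cm n) (chartAt (Cm n) x) z :
            Cm n →L[ℂ] Cm n) ^ m‖ ^ 2)

end

/-- **Theorem MFS**: `κ(F, K_F + Δ|_F) = -∞` or `κ(f | Δ) = -∞`. -/
def MainPartM : Prop := ∀ (n p d : ℕ) (_ : n = p + d) (X Z Y F : Type)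
  [TopologicalSpace X] [T2Space X] [CompactSpace X] [ConnectedSpace X]
  [ChartedSpace (Cm n) X] [IsManifold 𝓘(ℂ, Cm n) ω X]
  [TopologicalSpace Z] [ChartedSpace (Cm n) Z] [IsManifold 𝓘(ℂ, Cm n) ω Z]
  [TopologicalSpace Y] [T2Space Y] [ConnectedSpace Y]
  [ChartedSpace (Cm p) Y] [IsManifold 𝓘(ℂ, Cm p) ω Y]
  [TopologicalSpace F] [T2Space F] [CompactSpace F] [ConnectedSpace F]
  [ChartedSpace (Cm d) F] [IsManifold 𝓘(ℂ, Cm d) ω F]
  (χ : Chart n X → Cm n → Matrix (Fin n) (Fin n) ℂ) (_ : IsKahler χ)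
  (Δ : Set X → ℝ) (_ : J.IsSNC (Cm n) Δ) (_ : ∀ D, Δ D < 1)
  (m : ℕ) (_ : 0 < m) (k : Set X → ℕ) (_ : ∀ D, (k D : ℝ) = m * Δ D)
  (α θ : Chart n X → Cm n → Matrix (Fin n) (Fin n) ℂ) (_ : IsSemiPos α) (_ : IsSemiPos θ)
  (_ : Dense {x | (α (chartAt (Cm n) x) (chartAt (Cm n) x x)).PosDef})
  (ν : ℕ) (_ : ν < n) (_ : ∀ e x, At e x → (θ e (e x)).rank ≤ ν)
  (_ : Dense {x | (θ (chartAt (Cm n) x) (chartAt (Cm n) x x)).rank = ν})
  (W : X → ℝ)
  (_ : ∀ x, ∃ (r : ℕ) (g : Fin r → X → ℂ) (a : Fin r → ℕ),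
    VolLoc n m (fun (D : Set X) z g => J.IsLocalEq (Cm n) D g z) k W α θ x g a ∧
    ∀ᶠ z in 𝓝 x, ∀ i, g i z = 0 → ConAt n (g i) α θ z ∨ SmallAt n ν (g i) θ z)
  (j : Z → X) (_ : J.IsBigOpen (Cm n) j) (f : Z → Y) (_ : ContMDiff 𝓘(ℂ, Cm n) 𝓘(ℂ, Cm p) ω f)
  (i : F → Z) (_ : IsSmoothFibre (Cm n) (Cm p) (Cm d) f i)
  (_ : ∀ D, Δ D ≠ 0 → ∃ t, j (i t) ∉ D)
  (_ : Dense {t | (pull (fun t => j (i t)) α (chartAt (Cm d) t) (chartAt (Cm d) t t)).PosDef})
  (νF : ℕ) (_ : ∃ t, νF ≤ (pull (fun t => j (i t)) θ (chartAt (Cm d) t) (chartAt (Cm d) t t)).rank)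
  (_ : ∀ t : F, ∃ (r : ℕ) (g : Fin r → X → ℂ) (a : Fin r → ℕ),
    VolLoc n m (fun (D : Set X) z g => J.IsLocalEq (Cm n) D g z) k W α θ (j (i t)) g a ∧
    (∀ l, J.dif (Cm d) (fun t => g l (j (i t))) t ≠ 0) ∧
    ∀ᶠ s in 𝓝 t, ∀ l, g l (j (i s)) = 0 → ConFib n ν (fun t => j (i t)) (g l) α θ s ∨
      ConAt d (fun t => g l (j (i t))) (pull (fun t => j (i t)) α)
        (pull (fun t => j (i t)) θ) s ∨
      SmallAt d νF (fun t => g l (j (i t))) (pull (fun t => j (i t)) θ) s),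
  J.kod (Cm d) (fun (D : Set X) t g => ∃ e, J.IsLocalEq (Cm n) D e (j (i t)) ∧
      ∀ᶠ t' in 𝓝 t, g t' = e (j (i t'))) Δ + TL.kodF (n := n) (p := p) Δ j f = ⊥

end Vale.Agent.P281.H368.MFS
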