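import Vale.Agent.P281.H368.MFS.Gr1

/-! P281, theorem MFS, block GR (growth), part 2: the theorem. -/

open scoped Manifold ContDiff Topology ComplexOrder
open Set Filter Vale.Agent.P281.J Vale.Agent.P272.K Vale.Agent.P299

set_option linter.unusedSectionVars false

noncomputable section

namespace Vale.Agent.P281.H368.MFS

open Vale.Agent.P281.H167.GM Vale.Agent.P299.H223 Vale.Agent.P281.H368.GM
open Vale.Agent.P281.H713.SA Vale.Agent.P281.H949.SA
open Vale.Agent.P272.K.AMP (hess)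
open Vale.Agent.P272.K.INT (intX IsClosedForm IsDensity lag)
open Vale.Agent.P281.H368.KG (GData fderiv_ne)
open Vale.Agent.P281.H167.KG (LocAt)

variable {n : ℕ} {X : Type} [TopologicalSpace X] [ChartedSpace (Cm n) X]
  [IsManifold 𝓘(ℂ, Cm n) ω X] {m ν : ℕ} {Λ : D.FormM n X} {ρ : X → ℝ}
  {θ α χ : D.FormM n X} {x : X} {e : Chart n X}

/-- the quadratic form vanishes on the divisor -/
lemma Qf_zero_of_con (hα : IsForm α) (hθ : IsForm θ) {e : Chart n X} {y : X} (he : At e y)
    (hαp : (α e (e y)).PosSemidef) (hθp : (θ e (e y)).PosSemidef) (hr : (θ e (e y)).rank ≤ ν)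
    {g : X → ℂ} (hg : HolAt (Cm n) g y) (hd : ConAt n g α θ y ∨ SmallAt n ν g θ y) :
    Qf n ν (α e (e y)) (θ e (e y)) (dh (fun z => g (e.symm z)) (e y)) = 0 := by
  have hg1 : ∀ w, dif (Cm n) g y w = 0 →
      ∑ i, De e y w i * dh (fun z => g (e.symm z)) (e y) i = 0 := by
    intro w hw
    rw [dh_apply, ← Vale.Agent.P281.H787.dif_eq he hg]
    exact hw
  rcases hd with ⟨w, hw0, hw1, hw2, hw3⟩ | ⟨K, hK, hKw⟩
  · refine Qf_zero_of_ker hαp hθp hr (w := De e y w) ?_ (hg1 w hw1) (ker_change hα he hw2)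
      (ker_change hθ he hw3)
    intro h0
    exact hw0 (De_injective he (by rw [map_zero]; exact h0))
  · set L : Cm n →ₗ[ℂ] Cm n := (De e y : Cm n →ₗ[ℂ] Cm n) with hL
    have h1 : Module.finrank ℂ (K.map L) = Module.finrank ℂ K :=
      (Submodule.equivMapOfInjective L (De_injective he) K).finrank_eq.symm
    refine Qf_zero_of_sub hαp hθp hr (K := K.map L) (by rw [h1]; exact hK) ?_ ?_
    · rintro _ ⟨w, hw, rfl⟩
      exact hg1 w (hKw w hw).1
    · rintro _ ⟨w, hw, rfl⟩
      exact ker_change hθ he (hKw w hw).2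

/-- the zero form is closed -/
lemma closed_zero : IsClosedForm (n := n) (X := X) fun _ _ => 0 where
  smooth e x h i j := contDiffAt_const
  form := by
    intro e e' x hx hx'
    simp
  closed e x h i k l := by
    simp only [Matrix.zero_apply]
    rw [C2.dz_const, C2.dz_const]

/-- `i∂∂̄ log |w|² = 0` -/
lemma hess_log_unit {w : X → ℂ} {y : X} {e : Chart n X} (he : At e y) (hw : HolAt (Cm n) w y)
    (h0 : w y ≠ 0) : hess (fun y => Real.log (∑ _b : Fin 1, ‖w y‖ ^ 2)) e (e y) = 0 := by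
  have h1 : ContDiffAt ℂ ω (fun z => w (e.symm z)) (e y) := Vale.Agent.P281.H564.holAt_chart he hw
  have h2 : w (e.symm (e y)) ≠ 0 := by rwa [he.left_inv]
  have h3 := cHess_log_norm_sq h1 h2
  have h4 : (fun z => Real.log (∑ _b : Fin 1, ‖w (e.symm z)‖ ^ 2)) =
      fun z => Real.log (‖w (e.symm z)‖ ^ 2) := by
    funext z
    simp
  show cHess (fun z => Real.log (∑ _b : Fin 1, ‖w (e.symm z)‖ ^ 2)) (e y) = 0
  rw [h4, h3]

/-- **Row M-GR**. -/
theorem growthPartM : GrowthPartM := by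
  intro n X _ _ _ _ _ _ χ hχ m hm Λ hΛ ρ hρ hρ0 α θ hα hθ ν hν hloc
  have hαc := hα.isClosedForm
  have hθc := hθ.isClosedForm
  -- the trivial data
  have hG : GData n m n Λ ρ (fun _ _ => 0) α := by
    refine ⟨hm, hΛ, hρ, hρ0, closed_zero, hαc, fun e x hx => Matrix.PosSemidef.zero,
      hα.posSemidef, fun e x hx => by simp, fun x => ?_⟩
    obtain ⟨r, g, a, w, h1, -⟩ := hloc x
    have hw := h1.holH 0
    have hw0 : w x ≠ 0 := by
      obtain ⟨b, hb⟩ := h1.ne
      exact hb
    refine ⟨r, 1, g, a, _, h1, ?_⟩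
    filter_upwards [Vale.Agent.P281.H564.holAt_eventually hw,
      (Vale.Agent.P281.H564.holAt_continuousAt hw).eventually_ne hw0] with y h2 h3
    refine ⟨fun e he => ?_, fun i _ => Or.inr ⟨⊥, by simp, ?_⟩⟩
    · rw [hess_log_unit he h2 h3, smul_zero]
    · intro v hv
      rw [Submodule.mem_bot] at hv
      subst hv
      exact ⟨map_zero _, fun b b' => by simp⟩
  have hA : GAbs n m ν Λ ρ (fun _ _ => 0) θ α := by
    refine ⟨hm, hΛ, hρ, hρ0, closed_zero, hθc, hαc, hθ.posSemidef, hα.posSemidef, hν,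
      fun e x he hx => hG.lam he hx, fun e he => hG.null he, fun x => ?_⟩
    set e : Chart n X := chartAt (Cm n) x with he
    have hx : At e x := atc x
    obtain ⟨r, g, a, w, hl, hev⟩ := hloc x
    obtain ⟨ψ, hψs, hψ⟩ := hl.loc
    have hw := hl.holH 0
    have hw0 : w x ≠ 0 := by
      obtain ⟨b, hb⟩ := hl.ne
      exact hb
    have hαs : ∀ i j, ContDiffAt ℝ ∞ (fun z => α e z i j) (e x) := hα.smooth e x hx
    have hθs : ∀ i j, ContDiffAt ℝ ∞ (fun z => θ e z i j) (e x) := hθ.smooth e x hx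
    have hpos : ∀ᶠ z in 𝓝 (e x), (α e z).PosSemidef ∧ (θ e z).PosSemidef ∧ (θ e z).rank ≤ ν := by
      filter_upwards [hx.nhds_target] with z hz
      have hzA : At e (e.symm z) := At.of_target hx.1 hz
      have h1 := hα.posSemidef e _ hzA
      have h2 := hθ.posSemidef e _ hzA
      have h3 := hν e _ hzA
      rw [e.right_inv hz] at h1 h2 h3
      exact ⟨h1, h2, h3⟩
    have hgev : ∀ᶠ y in 𝓝 x, ∀ i, HolAt (Cm n) (g i) y :=
      eventually_all.2 fun i => Vale.Agent.P281.H564.holAt_eventually (hl.holg i).1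
    have hGs : ∀ i, ContDiffAt ℂ ω (fun z => g i (e.symm z)) (e x) := fun i =>
      Vale.Agent.P281.H564.holAt_chart hx (hl.holg i).1
    have hG' : ∀ i, fderiv ℂ (fun z => g i (e.symm z)) (e x) ≠ 0 := fun i =>
      fderiv_ne hx (hl.holg i).1 (hl.holg i).2
    -- the smooth factor
    set E : Cm n → ℝ := fun z => nsq (fun _ : Fin 1 => w (e.symm z)) *
      Real.exp (-m * ψ (e.symm z)) with hE
    have hψ2 : ContDiffAt ℝ 2 (fun z => ψ (e.symm z)) (e x) := (hψs e hx).of_le (by norm_cast)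
    have hHs : ContDiffAt ℂ ω (fun z (_ : Fin 1) => w (e.symm z)) (e x) :=
      contDiffAt_pi.2 fun b => Vale.Agent.P281.H564.holAt_chart hx hw
    have hH0 : (fun _ : Fin 1 => w (e.symm (e x))) ≠ 0 := by
      intro h0
      exact hw0 (by have := congrFun h0 0; rwa [hx.left_inv] at this)
    have hEs : ContDiffAt ℝ 2 E (e x) :=
      ((smooth_nsq hHs).of_le (by norm_cast)).mul (contDiffAt_const.mul hψ2).exp
    have hE0 : 0 < E (e x) := mul_pos (nsq_pos hH0) (Real.exp_pos _)
    have hR : ∀ᶠ z in 𝓝 (e x), ρ (e.symm z) = ‖∏ i, g i (e.symm z) ^ a i‖ ^ 2 * E z := by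
      filter_upwards [(Vale.Agent.P281.H564.tendsto_symm hx).eventually hψ] with z hz
      rw [hz.2, hE, mul_assoc]
      rfl
    refine local_bound hαs hθs hpos hGs hG' hEs hE0 hR ?_
    filter_upwards [hx.nhds_target, (Vale.Agent.P281.H564.tendsto_symm hx).eventually
      (hev.and hgev), hpos] with z hz hz2 hz3 i hgi
    have hzA : At e (e.symm z) := At.of_target hx.1 hz
    have hrz : e (e.symm z) = z := e.right_inv hz
    have h9 := Qf_zero_of_con (ν := ν) hαc.form hθc.form hzA (by rw [hrz]; exact hz3.1)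
      (by rw [hrz]; exact hz3.2.1) (by rw [hrz]; exact hz3.2.2) (hz2.2 i) (hz2.1 i hgi)
    rw [hrz] at h9
    exact h9
  obtain ⟨C₁, hC₁⟩ := growth hχ hA
  obtain ⟨C₂, hC₂⟩ := Vale.Agent.P281.H564.mixX_growth hαc hθc hα.posSemidef hθ.posSemidef hν
  have hz : ∀ s : ℝ, mixX (addF α s θ) (fun (_ : Chart n X) _ => 0) = 0 := by
    intro s
    have h1 : mixX (addF α s θ) (fun (_ : Chart n X) _ => 0) = intX fun (_ : Chart n X) _ => 0 := by
      refine INT.intX_congr fun e x hx => ?_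
      simp [mixD]
    rw [h1]
    exact INT.intX_zero
  refine ⟨max C₁ C₂, fun s hs => ?_⟩
  have hs0 : (0 : ℝ) < s := lt_of_lt_of_le one_pos hs
  have h1 := hC₁ s hs
  rw [hz, sub_zero] at h1
  constructor
  · refine h1.trans (div_le_div_of_nonneg_right (mul_le_mul_of_nonneg_right (le_max_left _ _)
      (by positivity)) hs0.le)
  · refine (hC₂ s hs).trans (div_le_div_of_nonneg_right (mul_le_mul_of_nonneg_right
      (le_max_right _ _) (by positivity)) hs0.le)

end Vale.Agent.P281.H368.MFS
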