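import Vale.Agent.P281.H167.KG.Iface
import Vale.Agent.P281.H342.KD.ME1
import Vale.Agent.P281.H368.MFS.Defs

/-! P281, theorem MFS (pairs `(X, Δ)` with a Mori fibre space): the remaining blocks of the proof, as
propositions (the others are in H156/MFS, H283/MFS, H342/MFS, H413/MFS, H575/MFS, H723/MFS,
H949/MFS). -/

open scoped Manifold ContDiff Topology ComplexOrder
open Set Filter Vale.Agent.P281 Vale.Agent.P272.K Vale.Agent.P272.K.AMP Vale.Agent.P299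
open Vale.Agent.P299.H882 (xi qf)
open Vale.Agent.P272.K.INT (IsClosedForm)

noncomputable section

namespace Vale.Agent.P281.H368.MFS

open Vale.Agent.P281.H713 Vale.Agent.P281.H713.SA Vale.Agent.P281.H713.KD Vale.Agent.P281.H716
open Vale.Agent.P281.H716.IsSys
open Vale.Agent.P281.H167.GM (mixX addF)
open Vale.Agent.P281.H167.KG (LocAt)

section defs

variable {n M : ℕ} {X : Type} [TopologicalSpace X] [ChartedSpace (Cm n) X]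

theorem IsSemiPos.isClosedForm {θ : D.FormM n X} (h : IsSemiPos θ) : IsClosedForm θ where
  smooth := h.smooth
  form := fun e e' x hx hx' => h.change e e' x hx hx'
  closed := fun e x hx i k l => h.closed e x hx k l i

/-- The field `good` of `IsDecPair`, with the kernel of the rows of `b` (text of 723). -/
def GoodF (r : Fin M → X → ℝ) (χ : D.FormM n X) (p μ : ℕ) (K : Fin M → ℕ)
    (N₀ N₁ : D.FormM n X → X → ℝ) (𝒦 : Chart n X → X → Cm n → Prop) : Prop :=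
  ∃ 𝒪 : Set X, Dense 𝒪 ∧ ∀ a : ℝ, 0 < a → ∃ C : ℝ, ∀ x ∈ 𝒪, (∀ i, 0 < r i x) ∧
    ∃ (e : Chart n X) (b : Cm n → Matrix (Fin p) (Fin n) ℂ) (c₀ c₁ : Cm n → ℂ), At e x ∧
      (∀ j l, AnalyticAt ℂ (fun z => b z j l) (e x)) ∧
      AnalyticAt ℂ c₀ (e x) ∧ AnalyticAt ℂ c₁ (e x) ∧
      (∀ g, IsKahler g → ∀ᶠ z in 𝓝 (e x),
        N₀ g (e.symm z) = ‖c₀ z‖ ^ 2 * (∏ i, r i (e.symm z) ^ K i) * gramD (b z) (g e z) ^ μ ∧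
        N₁ g (e.symm z) = ‖c₁ z‖ ^ 2 * (∏ i, r i (e.symm z) ^ K i) * gramD (b z) (g e z) ^ μ) ∧
      (a ≤ N₀ χ x + N₁ χ x → ∀ i, K i ≠ 0 → ∃ l : Fin p → ℂ,
        qf (χ e (e x)) (fun k => xi (fun y => Real.log (r i y)) e (e x) k -
          ∑ j, l j * b (e x) j k) ≤ C) ∧
      ∀ v : Cm n, (∀ j, ∑ k, b (e x) j k * v k = 0) → 𝒦 e x v

/-- the vector `v` (in the chart `e`, at the point `x = j z`) is in the kernel of `df` -/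
def KerF (p : ℕ) {Z Y : Type} [TopologicalSpace Z] [ChartedSpace (Cm n) Z] [TopologicalSpace Y]
    [ChartedSpace (Cm p) Y] (j : Z → X) (f : Z → Y) (e : Chart n X) (x : X) (v : Cm n) : Prop :=
  ∀ z, j z = x → ∀ w : Cm n, dV (Cm n) (fun w => e (j w)) z w = v → dM (Cm n) (Cm p) f z w = 0

/-- the kernel of `θ` at `j z` is contained in the kernel of `df` at `z` -/
def KerAt (p : ℕ) {Z Y : Type} [TopologicalSpace Z] [ChartedSpace (Cm n) Z] [TopologicalSpace Y]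
    [ChartedSpace (Cm p) Y] (θ : D.FormM n X) (j : Z → X) (f : Z → Y) (z : Z) : Prop :=
  ∀ v : Cm n, InKer (θ (chartAt (Cm n) (j z)) (chartAt (Cm n) (j z) (j z)))
    (mfderiv 𝓘(ℂ, Cm n) 𝓘(ℂ, Cm n) j z v : Cm n) → mfderiv 𝓘(ℂ, Cm n) 𝓘(ℂ, Cm p) f z v = 0

end defs

/-- **Row M-GR** (368): growth. -/
def GrowthPartM : Prop := ∀ (n : ℕ) (X : Type) [TopologicalSpace X] [T2Space X] [CompactSpace X]
  [ConnectedSpace X] [ChartedSpace (Cm n) X] [IsManifold 𝓘(ℂ, Cm n) ω X]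
  (χ : D.FormM n X) (_ : IsKahler χ) (m : ℕ) (_ : 0 < m) (Λ : D.FormM n X) (_ : IsClosedForm Λ)
  (ρ : X → ℝ) (_ : SmoothFn (n := n) ρ) (_ : ∀ x, 0 ≤ ρ x) (α θ : D.FormM n X)
  (_ : IsSemiPos α) (_ : IsSemiPos θ) (ν : ℕ) (_ : ∀ e x, At e x → (θ e (e x)).rank ≤ ν)
  (_ : ∀ x, ∃ (r : ℕ) (g : Fin r → X → ℂ) (a : Fin r → ℕ) (w : X → ℂ),
    LocAt m Λ ρ x g a (fun (_ : Fin 1) => w) ∧
    ∀ᶠ z in 𝓝 x, ∀ i, g i z = 0 → ConAt n (g i) α θ z ∨ SmallAt n ν (g i) θ z),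
  ∃ C₁ : ℝ, ∀ s : ℝ, 1 ≤ s → mixX (addF α s θ) Λ ≤ C₁ * s ^ ν / s ∧
    mixX (addF α s θ) θ ≤ C₁ * s ^ ν / s

/-- **Row M-TK** (342): the norms of the pull-back of a section, and the kernel of the rows `b`. -/
def TenPartM : Prop := ∀ (n p M : ℕ) (X Z Y : Type)
  [TopologicalSpace X] [T2Space X] [CompactSpace X] [ConnectedSpace X]
  [ChartedSpace (Cm n) X] [IsManifold 𝓘(ℂ, Cm n) ω X]
  [TopologicalSpace Z] [ChartedSpace (Cm n) Z] [IsManifold 𝓘(ℂ, Cm n) ω Z]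
  [TopologicalSpace Y] [T2Space Y] [ConnectedSpace Y]
  [ChartedSpace (Cm p) Y] [IsManifold 𝓘(ℂ, Cm p) ω Y]
  (χ : D.FormM n X) (_ : IsKahler χ)
  (j : Z → X) (_ : J.IsBigOpen (Cm n) j) (f : Z → Y) (_ : ContMDiff 𝓘(ℂ, Cm n) 𝓘(ℂ, Cm p) ω f)
  (_ : ∃ z, Function.Surjective (mfderiv 𝓘(ℂ, Cm n) 𝓘(ℂ, Cm p) f z))
  (𝒢 : Set (Set Y)) (_ : 𝒢.Finite) (_ : ∀ G ∈ 𝒢, J.IsPrime (Cm p) G)
  (Δ : Set X → ℝ) (_ : J.IsSNC (Cm n) Δ)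
  (Dv : Fin M → Set X) (_ : Function.Injective Dv) (_ : ∀ D, Δ D ≠ 0 ↔ ∃ i, Dv i = D)
  (r : Fin M → X → ℝ) (R : Fin M → D.FormM n X) (_ : IsBd Dv r R)
  (m : ℕ) (_ : 0 < m) (K₀ : Set X → ℕ) (_ : ∀ D, (K₀ D : ℝ) ≤ m * Δ D)
  (σ : Y → ℂ) (_ : TL.IsPullSection (n := n) (p := p) m K₀ 𝒢 j f σ),
  ∃ (μ : ℕ) (K : Fin M → ℕ) (N₀ N₁ : D.FormM n X → X → ℝ), 0 < μ ∧
    (∀ i, (K i : ℝ) ≤ μ * Δ (Dv i)) ∧ IsDecPair Dv r χ p μ K N₀ N₁ ∧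
    (∀ g x, IsKahler g → 0 < N₀ g x → 0 < N₁ g x →
      Real.log (N₁ g x) - Real.log (N₀ g x) = Real.log (N₁ χ x) - Real.log (N₀ χ x)) ∧
    GoodF r χ p μ K N₀ N₁ (KerF p j f) ∧
    ∀ z, f z ∉ ⋃₀ 𝒢 → (∀ i, j z ∉ Dv i) →
      Function.Surjective (mfderiv 𝓘(ℂ, Cm n) 𝓘(ℂ, Cm p) f z) → σ (f z) ≠ 0 →
      0 < N₀ χ (j z) ∧ 0 < N₁ χ (j z)

/-- **Row M-DG** (949): contracted hypersurfaces of `X` give contracted hypersurfaces of `F`. -/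
def ConPartM : Prop := ∀ (n p d : ℕ) (_ : n = p + d) (X Z Y F : Type)
  [TopologicalSpace X] [ChartedSpace (Cm n) X] [IsManifold 𝓘(ℂ, Cm n) ω X]
  [TopologicalSpace Z] [ChartedSpace (Cm n) Z] [IsManifold 𝓘(ℂ, Cm n) ω Z]
  [TopologicalSpace Y] [ChartedSpace (Cm p) Y] [IsManifold 𝓘(ℂ, Cm p) ω Y]
  [TopologicalSpace F] [ChartedSpace (Cm d) F] [IsManifold 𝓘(ℂ, Cm d) ω F]
  (j : Z → X) (_ : J.IsBigOpen (Cm n) j) (f : Z → Y) (_ : ContMDiff 𝓘(ℂ, Cm n) 𝓘(ℂ, Cm p) ω f)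
  (i : F → Z) (_ : IsSmoothFibre (Cm n) (Cm p) (Cm d) f i)
  (α θ : D.FormM n X) (_ : IsSemiPos α) (_ : IsSemiPos θ) (_ : Dense {z : Z | KerAt p θ j f z})
  (ν : ℕ) (_ : ∀ e x, At e x → (θ e (e x)).rank ≤ ν) (g : X → ℂ) (s : F)
  (_ : J.HolAt (Cm n) g (j (i s))) (_ : ConFib n ν (fun t => j (i t)) g α θ s),
  ConAt d (fun t => g (j (i t))) (pull (fun t => j (i t)) α) (pull (fun t => j (i t)) θ) s

/-- **Row M-AX** (413: assembly on `X`): the kernel of `θ` is contained in the kernel of `df`,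
generically, if `κ(f | Δ) ≥ 0`. -/
def KerPartM : Prop := ∀ (n p : ℕ) (X Z Y : Type)
  [TopologicalSpace X] [T2Space X] [CompactSpace X] [ConnectedSpace X]
  [ChartedSpace (Cm n) X] [IsManifold 𝓘(ℂ, Cm n) ω X]
  [TopologicalSpace Z] [ChartedSpace (Cm n) Z] [IsManifold 𝓘(ℂ, Cm n) ω Z]
  [TopologicalSpace Y] [T2Space Y] [ConnectedSpace Y]
  [ChartedSpace (Cm p) Y] [IsManifold 𝓘(ℂ, Cm p) ω Y]
  (χ : D.FormM n X) (_ : IsKahler χ)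
  (Δ : Set X → ℝ) (_ : J.IsSNC (Cm n) Δ) (_ : ∀ D, Δ D < 1)
  (m : ℕ) (_ : 0 < m) (k : Set X → ℕ) (_ : ∀ D, (k D : ℝ) = m * Δ D)
  (α θ : D.FormM n X) (_ : IsSemiPos α) (_ : IsSemiPos θ)
  (_ : Dense {x | (α (chartAt (Cm n) x) (chartAt (Cm n) x x)).PosDef})
  (ν : ℕ) (_ : ∀ e x, At e x → (θ e (e x)).rank ≤ ν)
  (_ : Dense {x | (θ (chartAt (Cm n) x) (chartAt (Cm n) x x)).rank = ν})
  (W : X → ℝ)
  (_ : ∀ x, ∃ (r : ℕ) (g : Fin r → X → ℂ) (a : Fin r → ℕ),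
    VolLoc n m (fun (D : Set X) z g => J.IsLocalEq (Cm n) D g z) k W α θ x g a ∧
    ∀ᶠ z in 𝓝 x, ∀ i, g i z = 0 → ConAt n (g i) α θ z ∨ SmallAt n ν (g i) θ z)
  (j : Z → X) (_ : J.IsBigOpen (Cm n) j) (f : Z → Y) (_ : ContMDiff 𝓘(ℂ, Cm n) 𝓘(ℂ, Cm p) ω f)
  (_ : ∃ z, Function.Surjective (mfderiv 𝓘(ℂ, Cm n) 𝓘(ℂ, Cm p) f z))
  (𝒢 : Set (Set Y)) (_ : 𝒢.Finite) (_ : ∀ G ∈ 𝒢, J.IsPrime (Cm p) G)
  (m' : ℕ) (_ : 0 < m') (K₀ : Set X → ℕ) (_ : ∀ D, (K₀ D : ℝ) ≤ m' * Δ D)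
  (σ : Y → ℂ) (_ : TL.IsPullSection (n := n) (p := p) m' K₀ 𝒢 j f σ)
  (_ : ∃ y, (∀ G ∈ 𝒢, y ∉ G) ∧ σ y ≠ 0),
  Dense {z : Z | KerAt p θ j f z}

/-- **Row M-AF** (368 + 575: assembly on `F`): the sections of `m₁ (K_F + Δ|_F)` vanish, if the kernel
of `θ` is contained in the kernel of `df`, generically. -/
def FibPartM : Prop := ∀ (n p d : ℕ) (_ : n = p + d) (X Z Y F : Type)
  [TopologicalSpace X] [T2Space X] [CompactSpace X] [ConnectedSpace X]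
  [ChartedSpace (Cm n) X] [IsManifold 𝓘(ℂ, Cm n) ω X]
  [TopologicalSpace Z] [ChartedSpace (Cm n) Z] [IsManifold 𝓘(ℂ, Cm n) ω Z]
  [TopologicalSpace Y] [T2Space Y] [ConnectedSpace Y]
  [ChartedSpace (Cm p) Y] [IsManifold 𝓘(ℂ, Cm p) ω Y]
  [TopologicalSpace F] [T2Space F] [CompactSpace F] [ConnectedSpace F]
  [ChartedSpace (Cm d) F] [IsManifold 𝓘(ℂ, Cm d) ω F]
  (χ : D.FormM n X) (_ : IsKahler χ)
  (Δ : Set X → ℝ) (_ : J.IsSNC (Cm n) Δ)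
  (m : ℕ) (_ : 0 < m) (k : Set X → ℕ) (_ : ∀ D, (k D : ℝ) = m * Δ D)
  (α θ : D.FormM n X) (_ : IsSemiPos α) (_ : IsSemiPos θ)
  (ν : ℕ) (_ : ν < n) (_ : ∀ e x, At e x → (θ e (e x)).rank ≤ ν)
  (W : X → ℝ)
  (j : Z → X) (_ : J.IsBigOpen (Cm n) j) (f : Z → Y) (_ : ContMDiff 𝓘(ℂ, Cm n) 𝓘(ℂ, Cm p) ω f)
  (i : F → Z) (_ : IsSmoothFibre (Cm n) (Cm p) (Cm d) f i)
  (_ : ∀ D, Δ D ≠ 0 → ∃ t, j (i t) ∉ D)
  (_ : Dense {t | (pull (fun t => j (i t)) α (chartAt (Cm d) t) (chartAt (Cm d) t t)).PosDef})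
  (νF : ℕ) (_ : ∃ t, νF ≤ (pull (fun t => j (i t)) θ (chartAt (Cm d) t) (chartAt (Cm d) t t)).rank)
  (_ : ∀ t : F, ∃ (r : ℕ) (g : Fin r → X → ℂ) (a : Fin r → ℕ),
    VolLoc n m (fun (D : Set X) z g => J.IsLocalEq (Cm n) D g z) k W α θ (j (i t)) g a ∧
    (∀ l, J.dif (Cm d) (fun t => g l (j (i t))) t ≠ 0) ∧
    ∀ᶠ s in 𝓝 t, ∀ l, g l (j (i s)) = 0 → ConFib n ν (fun t => j (i t)) (g l) α θ s ∨
      ConAt d (fun t => g l (j (i t))) (pull (fun t => j (i t)) α)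
        (pull (fun t => j (i t)) θ) s ∨
      SmallAt d νF (fun t => g l (j (i t))) (pull (fun t => j (i t)) θ) s)
  (_ : Dense {z : Z | KerAt p θ j f z}) (m₁ : ℕ) (_ : 0 < m₁) (k₁ : Set X → ℕ)
  (_ : ∀ D, (k₁ D : ℝ) = m₁ * Δ D) (σ : F → ℂ)
  (_ : J.IsSection (Cm d) (fun (D : Set X) t g => ∃ e, J.IsLocalEq (Cm n) D e (j (i t)) ∧
      ∀ᶠ t' in 𝓝 t, g t' = e (j (i t'))) m₁ k₁ σ) (t : F)
  (_ : ∀ D, k₁ D ≠ 0 → ∃ g : F → ℂ, (∃ e, J.IsLocalEq (Cm n) D e (j (i t)) ∧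
      ∀ᶠ t' in 𝓝 t, g t' = e (j (i t'))) ∧ g t ≠ 0), σ t = 0

end Vale.Agent.P281.H368.MFS
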