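import Vale.Agent.P281.H368.KG.G2
import Vale.Agent.P281.H368.MFS.Iface

/-! P281, theorem MFS, block GR (growth), part 1: abstract form. -/

open scoped Manifold ContDiff Topology ComplexOrder
open Set Filter Vale.Agent.P281.J Vale.Agent.P272.K Vale.Agent.P299

set_option linter.unusedSectionVars false

noncomputable section

namespace Vale.Agent.P281.H368.MFS

open Vale.Agent.P281.H167.GM Vale.Agent.P299.H223 Vale.Agent.P281.H368.GM
open Vale.Agent.P281.H713.SA Vale.Agent.P281.H949.SA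
open Vale.Agent.P272.K.AMP (hess)
open Vale.Agent.P272.K.INT (intX IsClosedForm IsDensity lag)
open Vale.Agent.P299.H882 (J)
open Vale.Agent.P281.H368.KG (BdL isForm_BdL smooth_BdL)

variable {n : ℕ} {X : Type} [TopologicalSpace X] [ChartedSpace (Cm n) X]

/-- the abstract data of the growth theorem: `θ₀` is the form of the moving part of `Λ`, `θ` the
growing form -/
structure GAbs (n m ν : ℕ) {X : Type} [TopologicalSpace X] [ChartedSpace (Cm n) X]
    (Λ : D.FormM n X) (ρ : X → ℝ) (θ₀ θ β : D.FormM n X) : Prop where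
  hm : 0 < m
  hΛ : IsClosedForm Λ
  hρ : SmoothFn (n := n) ρ
  hρ0 : ∀ x, 0 ≤ ρ x
  hθ₀ : IsClosedForm θ₀
  hθ : IsClosedForm θ
  hβ : IsClosedForm β
  hθp : ∀ e x, At e x → (θ e (e x)).PosSemidef
  hβp : ∀ e x, At e x → (β e (e x)).PosSemidef
  hν : ∀ e x, At e x → (θ e (e x)).rank ≤ ν
  lam : ∀ e x, At e x → 0 < ρ x → θ₀ e (e x) = Λ e (e x) + (((m : ℝ)⁻¹ : ℝ) : ℂ) •
      cHess (fun z => Real.log (ρ (e.symm z))) (e x)
  null : ∀ e ∈ atlas (Cm n) X, MeasureTheory.volume {z | z ∈ e.target ∧ ρ (e.symm z) = 0} = 0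
  local_bd : ∀ x : X, ∃ C : ℝ, ∀ᶠ z in 𝓝 ((chartAt (Cm n) x : Chart n X) x),
      0 < ρ ((chartAt (Cm n) x : Chart n X).symm z) →
      Qf n ν (β (chartAt (Cm n) x) z) (θ (chartAt (Cm n) x) z)
        (GM.dd (fun y => Real.log (ρ ((chartAt (Cm n) x : Chart n X).symm y))) z) ≤ C

variable [IsManifold 𝓘(ℂ, Cm n) ω X] {m ν : ℕ} {Λ : D.FormM n X} {ρ : X → ℝ}
  {θ₀ θ β χ A : D.FormM n X} {x : X} {e : Chart n X}

namespace GAbs

/-- near every point `ρ` is positive somewhere -/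
lemma freq (h : GAbs n m ν Λ ρ θ₀ θ β) {e : Chart n X} {x : X} (hx : At e x) :
    ∃ᶠ z in 𝓝 (e x), 0 < ρ (e.symm z) := by
  intro hcon
  have h1 : ∀ᶠ z in 𝓝 (e x), z ∈ e.target ∧ ρ (e.symm z) = 0 := by
    filter_upwards [hcon, hx.nhds_target] with z hz hz2
    exact ⟨hz2, le_antisymm (not_lt.1 hz) (h.hρ0 _)⟩
  obtain ⟨t, ht, hball⟩ := Metric.eventually_nhds_iff_ball.1 h1
  have h2 : MeasureTheory.volume (Metric.ball (e x) t) = 0 :=
    MeasureTheory.measure_mono_null (fun z hz => hball z hz) (h.null e hx.1)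
  exact (Metric.measure_ball_pos MeasureTheory.volume (e x) ht).ne' h2

lemma mpos (h : GAbs n m ν Λ ρ θ₀ θ β) : (0 : ℝ) < m := by exact_mod_cast h.hm

end GAbs

namespace GAbs

/-- the form `B_δ` off the zeros of `ρ` -/
lemma BdL_eq (h : GAbs n m ν Λ ρ θ₀ θ β) {δ : ℝ} (hδ : 0 < δ) (hx : At e x) (hρx : 0 < ρ x) :
    BdL m Λ ρ θ₀ δ e (e x) = (((m : ℝ)⁻¹ * (δ * ρ x / (ρ x + δ) ^ 2) : ℝ) : ℂ) •
      rk1 (GM.dd (fun y => Real.log (ρ (e.symm y))) (e x)) := by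
  have hρ2 : ContDiffAt ℝ 2 (fun y => ρ (e.symm y)) (e x) := (h.hρ e x hx).of_le (by norm_cast)
  have hpos : 0 < ρ (e.symm (e x)) := by rwa [hx.left_inv]
  have h1 : ContDiffAt ℝ 2 (fun y => Real.log (ρ (e.symm y) + δ)) (e x) :=
    (hρ2.add contDiffAt_const).log (by linarith)
  have h2 : addH Λ (fun x => (m : ℝ)⁻¹ * Real.log (ρ x + δ)) e (e x) = Λ e (e x) +
      (((m : ℝ)⁻¹ : ℝ) : ℂ) • (((ρ x / (ρ x + δ) : ℝ) : ℂ) •
        cHess (fun y => Real.log (ρ (e.symm y))) (e x) +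
        ((δ * ρ x / (ρ x + δ) ^ 2 : ℝ) : ℂ) • rk1 (GM.dd (fun y => Real.log (ρ (e.symm y))) (e x))) := by
    have h3 := cHess_log_add hρ2 hpos hδ.le
    rw [hx.left_inv] at h3
    rw [← h3, ← C2.cHess_const_mul _ h1]
    rfl
  have hsum : ρ x + δ ≠ 0 := by linarith
  unfold BdL
  rw [hx.left_inv, h2, h.lam e x hx hρx]
  set P := Λ e (e x)
  set L := cHess (fun y => Real.log (ρ (e.symm y))) (e x)
  set K := rk1 (GM.dd (fun y => Real.log (ρ (e.symm y))) (e x))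
  ext i j
  simp only [Matrix.sub_apply, Matrix.add_apply, Matrix.smul_apply, smul_eq_mul]
  have h1 : (δ / (ρ x + δ) : ℝ) = 1 - ρ x / (ρ x + δ) := by field_simp; ring
  rw [h1]
  push_cast
  ring

end GAbs

/-- the density `F_a` -/
def DFM (a : ℕ) (m : ℕ) (Λ : D.FormM n X) (ρ : X → ℝ) (β θ θ₀ : D.FormM n X) (δ : ℝ) :
    Chart n X → Cm n → ℝ :=
  fun e z => Fa n a (β e z) (θ e z) (BdL m Λ ρ θ₀ δ e z)

lemma isDensity_DFM (a : ℕ) (hΛ : IsClosedForm Λ) (hρ : SmoothFn (n := n) ρ)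
    (h0 : ∀ x, 0 ≤ ρ x) (hθ₀ : IsClosedForm θ₀) (hθ : IsClosedForm θ) (hβ : IsClosedForm β)
    {δ : ℝ} (hδ : 0 < δ) :
    IsDensity (DFM a m Λ ρ β θ θ₀ δ) := by
  unfold DFM Fa
  refine INT.IsDensity.sum Finset.univ (D := fun (l : Fin (n + 1)) e z => cw n a l *
    mixD (β e z + (((l : ℕ) : ℝ) : ℂ) • θ e z) (BdL m Λ ρ θ₀ δ e z)) fun l _ => ?_
  refine INT.IsDensity.const_mul ?_ _
  have hc := isClosed_addF hβ hθ (((l : ℕ) : ℝ))
  exact Vale.Agent.P281.H787.isDensity_mixD hc.form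
    (isForm_BdL hΛ hρ h0 hθ₀ hδ) hc.smooth
    fun e x hx i j => smooth_BdL hΛ hρ h0 hθ₀ hδ e x hx i j

lemma intX_DFM [T2Space X] [CompactSpace X] (a : ℕ) (hΛ : IsClosedForm Λ)
    (hρ : SmoothFn (n := n) ρ) (h0 : ∀ x, 0 ≤ ρ x) (hθ₀ : IsClosedForm θ₀) (hθ : IsClosedForm θ)
    (hβ : IsClosedForm β)
    {δ : ℝ} (hδ : 0 < δ) : intX (DFM a m Λ ρ β θ θ₀ δ) =
      ∑ l : Fin (n + 1), cw n a l * mixX (addF β ((l : ℕ) : ℝ) θ) (BdL m Λ ρ θ₀ δ) := by
  have h1 : ∀ l : Fin (n + 1), IsDensity (fun (e : Chart n X) z =>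
      mixD (addF β ((l : ℕ) : ℝ) θ e z) (BdL m Λ ρ θ₀ δ e z)) := by
    intro l
    have hc := isClosed_addF hβ hθ (((l : ℕ) : ℝ))
    exact Vale.Agent.P281.H787.isDensity_mixD hc.form
      (isForm_BdL hΛ hρ h0 hθ₀ hδ) hc.smooth
      fun e x hx i j => smooth_BdL hΛ hρ h0 hθ₀ hδ e x hx i j
  have h2 := INT.intX_sum Finset.univ (D := fun (l : Fin (n + 1)) (e : Chart n X) z => cw n a l *
    mixD (addF β ((l : ℕ) : ℝ) θ e z) (BdL m Λ ρ θ₀ δ e z)) fun l _ => (h1 l).const_mul _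
  have h3 : intX (DFM a m Λ ρ β θ θ₀ δ) = intX (fun (e : Chart n X) z => ∑ l : Fin (n + 1), cw n a l *
    mixD (addF β ((l : ℕ) : ℝ) θ e z) (BdL m Λ ρ θ₀ δ e z)) := rfl
  rw [h3, h2]
  exact Finset.sum_congr rfl fun l _ => INT.intX_const_mul _ _

/-- the mass of `Λ + (1/m) i∂∂̄ log (ρ + δ)` does not depend on `δ` -/
lemma mixX_addL [T2Space X] [CompactSpace X] (coh : CohPart) (hΛ : IsClosedForm Λ)
    (hρ : SmoothFn (n := n) ρ) (h0 : ∀ x, 0 ≤ ρ x) (hA : IsClosedForm A) {δ : ℝ} (hδ : 0 < δ) :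
    mixX A (addH Λ (fun x => (m : ℝ)⁻¹ * Real.log (ρ x + δ))) = mixX A Λ := by
  have h0' : SmoothFn (n := n) (fun _ : X => (0 : ℝ)) := fun e x hx => contDiffAt_const
  rw [← coh n X A Λ hA hΛ (fun _ => 0)
    (fun x => (m : ℝ)⁻¹ * Real.log (ρ x + δ)) h0' (smooth_logR hρ h0 m hδ)]
  refine mixX_congr (fun e x hx => ?_) fun e x hx => rfl
  show A e (e x) = A e (e x) + cHess (fun _ => (0 : ℝ)) (e x)
  have h1 : cHess (fun _ : Cm n => (0 : ℝ)) (e x) = 0 := by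
    have h2 := C2.cHess_const_mul (n := n) 0 (u := fun _ => (0 : ℝ)) (z := e x) contDiffAt_const
    simpa using h2
  rw [h1, add_zero]

/-- the limit of `∫ A ^ (n-1) ∧ B_δ` -/
theorem tendsto_mixX_BdL [T2Space X] [CompactSpace X] (coh : CohPart)
    (hχ : IsKahler χ) (h : GAbs n m ν Λ ρ θ₀ θ β) (hA : IsClosedForm A) :
    Tendsto (fun δ : ℝ => mixX A (BdL m Λ ρ θ₀ δ)) (𝓝[>] 0)
      (𝓝 (mixX A Λ - mixX A θ₀)) := by
  have hχH := hχ.toIsHermitian
  have hΛ := h.hΛ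
  have hρ := h.hρ
  have h0 := h.hρ0
  have hθ₀ := h.hθ₀
  have d1 := Vale.Agent.P281.H787.isDensity_mixD hA.form hθ₀.form hA.smooth hθ₀.smooth
  have d2 := Vale.Agent.P281.H787.isDensity_mixD hA.form hΛ.form hA.smooth hΛ.smooth
  obtain ⟨f, hhc, hh⟩ := Vale.Agent.P281.H787.exists_quot (d1.sub d2) hχH
  have hρc : Continuous ρ := INT.SmoothFn.continuous hρ
  have hlim := Vale.Agent.P281.H227.SB.tendsto_mass hχH hρc h0 (fun e he => h.null e he) hhc
  have hlim2 : Tendsto (fun δ : ℝ => mixX A Λ - mixX A θ₀ +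
      H882.J χ (fun x => δ / (ρ x + δ) * f x)) (𝓝[>] 0) (𝓝 (mixX A Λ - mixX A θ₀ + 0)) :=
    hlim.const_add _
  rw [add_zero] at hlim2
  refine hlim2.congr' ?_
  filter_upwards [self_mem_nhdsWithin] with δ hδ
  have hδ' : (0 : ℝ) < δ := hδ
  have hcan := Vale.Agent.P281.H227.GMC.isClosed_addH hΛ (smooth_logR hρ h0 m hδ')
  have d3 := Vale.Agent.P281.H787.isDensity_mixD hA.form hcan.form hA.smooth hcan.smooth
  have hc : Continuous fun x => δ / (ρ x + δ) * f x :=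
    (continuous_const.div (hρc.add continuous_const) fun x =>
      (add_pos_of_nonneg_of_pos (h0 x) hδ').ne').mul hhc
  rw [← mixX_addL (m := m) (ρ := ρ) coh hΛ hρ h0 hA hδ']
  have e1 : mixX A (addH Λ (fun x => (m : ℝ)⁻¹ * Real.log (ρ x + δ))) - mixX A θ₀ =
      intX fun (e : Chart n X) z =>
      mixD (A e z) (addH Λ (fun x => (m : ℝ)⁻¹ * Real.log (ρ x + δ)) e z) -
        mixD (A e z) (θ₀ e z) := (INT.intX_sub d3 d1).symm
  rw [e1]
  unfold H882.J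
  rw [← INT.intX_add (d3.sub d1) (Vale.Agent.P299.H882.J_dens hχH hc)]
  refine INT.intX_congr fun e x hx => ?_
  have e2 := hh e x hx
  beta_reduce at e2
  rw [hx.left_inv]
  show _ = mixD (A e (e x)) (BdL m Λ ρ θ₀ δ e (e x))
  unfold BdL
  rw [hx.left_inv, mixD_sub_right, mixD_sub_right, mixD_smul_right, mixD_smul_right, mul_assoc,
    ← e2]
  have e3 : ρ x + δ ≠ 0 := (add_pos_of_nonneg_of_pos (h0 x) hδ').ne'
  field_simp
  ring

namespace GAbs

variable (h : GAbs n m ν Λ ρ θ₀ θ β)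

include h

/-- the value of `F_a` off the zeros of `ρ` -/
lemma DFM_eq (a : ℕ) {δ : ℝ} (hδ : 0 < δ) {e : Chart n X} {x : X} (hx : At e x) (hρx : 0 < ρ x) :
    DFM a m Λ ρ β θ θ₀ δ e (e x) = (m : ℝ)⁻¹ * (δ * ρ x / (ρ x + δ) ^ 2) *
      Fa n a (β e (e x)) (θ e (e x)) (rk1 (GM.dd (fun y => Real.log (ρ (e.symm y))) (e x))) := by
  rw [DFM, h.BdL_eq hδ hx hρx, Fa_smul]

lemma dens (a : ℕ) {δ : ℝ} (hδ : 0 < δ) : IsDensity (DFM a m Λ ρ β θ θ₀ δ) :=
  isDensity_DFM a h.hΛ h.hρ h.hρ0 h.hθ₀ h.hθ h.hβ hδ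

lemma DFM_zero {a : ℕ} (ha : ν < a) {δ : ℝ} (hδ : 0 < δ) {e : Chart n X} {x : X}
    (hx : At e x) : DFM a m Λ ρ β θ θ₀ δ e (e x) = 0 := by
  have hc := (h.dens a hδ).cont e x hx
  have key : ∃ᶠ z in 𝓝 (e x), DFM a m Λ ρ β θ θ₀ δ e z = 0 := by
    refine ((h.freq hx).and_eventually hx.nhds_target).mono ?_
    rintro z ⟨hz, hzt⟩
    have hzA : At e (e.symm z) := At.of_target hx.1 hzt
    have h1 := h.DFM_eq a hδ hzA hz
    rw [Fa_eq_zero (h.hβp e _ hzA) (h.hθp e _ hzA) (rk1_psd _) (h.hν e _ hzA) ha, mul_zero,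
      e.right_inv hzt] at h1
    exact h1
  exact le_antisymm (le_of_frequently hc continuousAt_const (key.mono fun z hz => hz.le))
    (le_of_frequently continuousAt_const hc (key.mono fun z hz => hz.ge))

lemma DFM_nonneg {δ : ℝ} (hδ : 0 < δ) {e : Chart n X} {x : X} (hx : At e x) :
    0 ≤ DFM ν m Λ ρ β θ θ₀ δ e (e x) := by
  refine le_of_frequently continuousAt_const ((h.dens ν hδ).cont e x hx) ?_
  refine ((h.freq hx).and_eventually hx.nhds_target).mono ?_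
  rintro z ⟨hz, hzt⟩
  have hzA : At e (e.symm z) := At.of_target hx.1 hzt
  have h1 := h.DFM_eq ν hδ hzA hz
  rw [e.right_inv hzt] at h1
  rw [h1]
  have h2 := Fa_nonneg (h.hβp e _ hzA) (h.hθp e _ hzA)
    (rk1_psd (GM.dd (fun y => Real.log (ρ (e.symm y))) (e (e.symm z)))) (h.hν e _ hzA)
  rw [e.right_inv hzt] at h2
  have h3 := h.mpos
  have h4 := hz.le
  positivity

/-- the uniform bound near a point -/
lemma nhds_bound (hχ : IsHermitian χ) (x : X) : ∃ C : ℝ, 0 ≤ C ∧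
    ∀ᶠ y in 𝓝 x, 0 < ρ y → ∀ e, At e y → ∀ δ : ℝ, 0 < δ →
      DFM ν m Λ ρ β θ θ₀ δ e (e y) ≤ C * (δ / (ρ y + δ)) * (χ e (e y)).det.re := by
  obtain ⟨C, hC⟩ := h.local_bd x
  set c : Chart n X := chartAt (Cm n) x with hc
  have hx : At c x := atc x
  have hdet : ContinuousAt (fun z => (χ c z).det.re) (c x) := by
    have h1 : ContDiffAt ℝ ∞ (fun z => (χ c z).det) (c x) :=
      INT.contDiffAt_det (hχ.smooth c x hx)
    exact (Complex.continuous_re.continuousAt).comp h1.continuousAt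
  have hdp : 0 < (χ c (c x)).det.re := hχ.det_re_pos hx
  set d : ℝ := (χ c (c x)).det.re / 2 with hd
  have hd0 : 0 < d := half_pos hdp
  have hdet' : ∀ᶠ z in 𝓝 (c x), d < (χ c z).det.re :=
    hdet.eventually (lt_mem_nhds (half_lt_self hdp))
  have hm := h.mpos
  refine ⟨(m : ℝ)⁻¹ * |C| / d, by positivity, ?_⟩
  filter_upwards [(c.continuousAt hx.2).eventually (hC.and hdet'), c.open_source.mem_nhds hx.2]
    with y hy hys hρy e he δ hδ
  have hyA : At c y := ⟨hx.1, hys⟩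
  have hy1 := hy.1
  rw [c.left_inv hys] at hy1
  have h1 := hy1 hρy
  -- in the chart `c`
  have h2 : DFM ν m Λ ρ β θ θ₀ δ c (c y) ≤
      (m : ℝ)⁻¹ * |C| / d * (δ / (ρ y + δ)) * (χ c (c y)).det.re := by
    rw [h.DFM_eq ν hδ hyA hρy]
    have h3 : Fa n ν (β c (c y)) (θ c (c y))
        (rk1 (GM.dd (fun y => Real.log (ρ (c.symm y))) (c y))) ≤ |C| := h1.trans (le_abs_self _)
    have h4 : δ * ρ y / (ρ y + δ) ^ 2 ≤ δ / (ρ y + δ) := by
      rw [div_le_div_iff₀ (by positivity) (by positivity)]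
      have : 0 ≤ δ * (ρ y + δ) * δ := by positivity
      nlinarith
    have h5 : (1 : ℝ) ≤ (χ c (c y)).det.re / d := by
      rw [le_div_iff₀ hd0, one_mul]; exact hy.2.le
    have h6 : 0 ≤ δ * ρ y / (ρ y + δ) ^ 2 := by positivity
    have h7 : 0 ≤ δ / (ρ y + δ) := by positivity
    calc (m : ℝ)⁻¹ * (δ * ρ y / (ρ y + δ) ^ 2) * Fa n ν (β c (c y)) (θ c (c y))
          (rk1 (GM.dd (fun y => Real.log (ρ (c.symm y))) (c y)))
        ≤ (m : ℝ)⁻¹ * (δ * ρ y / (ρ y + δ) ^ 2) * |C| :=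
          mul_le_mul_of_nonneg_left h3 (by positivity)
      _ ≤ (m : ℝ)⁻¹ * (δ / (ρ y + δ)) * |C| := by
          refine mul_le_mul_of_nonneg_right (mul_le_mul_of_nonneg_left h4 (by positivity))
            (abs_nonneg _)
      _ ≤ (m : ℝ)⁻¹ * (δ / (ρ y + δ)) * |C| * ((χ c (c y)).det.re / d) :=
          le_mul_of_one_le_right (by positivity) h5
      _ = (m : ℝ)⁻¹ * |C| / d * (δ / (ρ y + δ)) * (χ c (c y)).det.re := by ring
  -- in the chart `e`
  have h8 := (h.dens ν hδ).change e c y he hyA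
  have h9 := (INT.isDensity_det hχ.isForm hχ.smooth).change e c y he hyA
  rw [h8, h9, ← mul_assoc]
  exact mul_le_mul_of_nonneg_right h2 (by positivity)

/-- **the uniform bound** -/
theorem bound [CompactSpace X] (hχ : IsHermitian χ) : ∃ C : ℝ, 0 ≤ C ∧
    ∀ δ : ℝ, 0 < δ → ∀ e x, At e x →
      DFM ν m Λ ρ β θ θ₀ δ e (e x) ≤ C * (δ / (ρ x + δ)) * (χ e (e x)).det.re := by
  choose C hC0 hC using fun x => h.nhds_bound hχ x
  obtain ⟨t, -, ht⟩ := isCompact_univ.elim_nhds_subcover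
    (fun x => {y | 0 < ρ y → ∀ e, At e y → ∀ δ : ℝ, 0 < δ →
      DFM ν m Λ ρ β θ θ₀ δ e (e y) ≤ C x * (δ / (ρ y + δ)) * (χ e (e y)).det.re})
    (fun x _ => hC x)
  have hCs : 0 ≤ ∑ x ∈ t, C x := Finset.sum_nonneg fun x _ => hC0 x
  refine ⟨∑ x ∈ t, C x, hCs, ?_⟩
  have key : ∀ δ : ℝ, 0 < δ → ∀ e x, At e x → 0 < ρ x →
      DFM ν m Λ ρ β θ θ₀ δ e (e x) ≤ (∑ x ∈ t, C x) * (δ / (ρ x + δ)) * (χ e (e x)).det.re := by
    intro δ hδ e x hx hρx
    obtain ⟨i, hi, hxi⟩ := mem_iUnion₂.1 (ht (mem_univ x))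
    refine (hxi hρx e hx δ hδ).trans ?_
    refine mul_le_mul_of_nonneg_right (mul_le_mul_of_nonneg_right ?_ (by positivity))
      (hχ.det_re_pos hx).le
    exact Finset.single_le_sum (f := C) (fun x _ => hC0 x) hi
  intro δ hδ e x hx
  have hc2 : ContinuousAt (fun z => (∑ x ∈ t, C x) * (δ / (ρ (e.symm z) + δ)) *
      (χ e z).det.re) (e x) := by
    have h1 : ContinuousAt (fun z => ρ (e.symm z)) (e x) := (h.hρ e x hx).continuousAt
    have h2 : ContinuousAt (fun z => (χ e z).det.re) (e x) :=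
      (INT.isDensity_det hχ.isForm hχ.smooth).cont e x hx
    refine (continuousAt_const.mul (continuousAt_const.div (h1.add continuousAt_const) ?_)).mul h2
    have := h.hρ0 (e.symm (e x))
    have h4 : 0 < ρ (e.symm (e x)) + δ := by linarith
    exact h4.ne'
  have h3 := le_of_frequently ((h.dens ν hδ).cont e x hx) hc2 (by
    refine ((h.freq hx).and_eventually hx.nhds_target).mono ?_
    rintro z ⟨hz, hzt⟩
    have hzA : At e (e.symm z) := At.of_target hx.1 hzt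
    have h1 := key δ hδ e (e.symm z) hzA hz
    rw [e.right_inv hzt] at h1
    exact h1)
  rw [hx.left_inv] at h3
  exact h3

end GAbs

/-- growth for `GAbs` -/
theorem growth [T2Space X] [CompactSpace X] (hχ : IsKahler χ) (h : GAbs n m ν Λ ρ θ₀ θ β) :
    ∃ C₁ : ℝ, ∀ s : ℝ, 1 ≤ s →
      mixX (addF β s θ) Λ - mixX (addF β s θ) θ₀ ≤ C₁ * s ^ ν / s := by
  have hχH := hχ.toIsHermitian
  have coh : CohPart := Vale.Agent.P281.H227.GMC.cohPart
  have hΛ := h.hΛ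
  have hρ := h.hρ
  have hρ0 := h.hρ0
  have hθ := h.hθ
  have hβ := h.hβ
  -- the polynomial
  set T : Fin (n + 1) → ℝ := fun j => mixX (addF β ((j : ℕ) : ℝ) θ) Λ -
    mixX (addF β ((j : ℕ) : ℝ) θ) θ₀ with hT
  obtain ⟨p, hp, hev⟩ := exists_poly_lag T
  have hT0 : ∀ s : ℝ, p.eval s = mixX (addF β s θ) Λ - mixX (addF β s θ) θ₀ := by
    intro s
    rw [hev, Vale.Agent.P281.H787.mixX_lag hβ hθ hΛ.form hΛ.smooth s,
      Vale.Agent.P281.H787.mixX_lag hβ hθ h.hθ₀.form h.hθ₀.smooth s, ← Finset.sum_sub_distrib]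
    exact Finset.sum_congr rfl fun j _ => by rw [hT]; ring
  -- the coefficients are limits
  have hlim : ∀ a : ℕ, Tendsto (fun δ : ℝ => intX (DFM a m Λ ρ β θ θ₀ δ)) (𝓝[>] 0)
      (𝓝 (p.coeff a)) := by
    intro a
    rw [cw_spec n a hp]
    have h1 : Tendsto (fun δ : ℝ => ∑ l : Fin (n + 1), cw n a l *
        mixX (addF β ((l : ℕ) : ℝ) θ) (BdL m Λ ρ θ₀ δ)) (𝓝[>] 0)
        (𝓝 (∑ l : Fin (n + 1), cw n a l * p.eval ((l : ℕ) : ℝ))) := by
      refine tendsto_finsetSum _ fun l _ => Tendsto.const_mul _ ?_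
      rw [hT0]
      exact tendsto_mixX_BdL coh hχ h (isClosed_addF hβ hθ _)
    refine h1.congr' ?_
    filter_upwards [self_mem_nhdsWithin] with δ hδ
    exact (intX_DFM a hΛ hρ hρ0 h.hθ₀ hθ hβ hδ).symm
  have hcoef : ∀ a, ν ≤ a → p.coeff a = 0 := by
    intro a ha
    rcases ha.lt_or_eq with ha | rfl
    · refine tendsto_nhds_unique (hlim a) ?_
      refine tendsto_const_nhds.congr' ?_
      filter_upwards [self_mem_nhdsWithin] with δ hδ
      rw [INT.intX_congr (D' := fun _ _ => (0 : ℝ)) fun e x hx => h.DFM_zero ha hδ hx]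
      exact INT.intX_zero.symm
    · obtain ⟨C, hC0, hC⟩ := h.bound hχH
      have hρc : Continuous ρ := INT.SmoothFn.continuous hρ
      have hmass : Tendsto (fun δ : ℝ => C * H882.J χ (fun x => δ / (ρ x + δ) * 1)) (𝓝[>] 0)
          (𝓝 0) := by
        have h1 := Vale.Agent.P281.H227.SB.tendsto_mass hχH hρc hρ0 (fun e he => h.null e he)
          (continuous_const (y := (1 : ℝ)))
        have := h1.const_mul C
        rwa [mul_zero] at this
      refine tendsto_nhds_unique (hlim ν) (squeeze_zero' ?_ ?_ hmass)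
      · filter_upwards [self_mem_nhdsWithin] with δ hδ
        exact INT.intX_nonneg fun e x hx => h.DFM_nonneg hδ hx
      · filter_upwards [self_mem_nhdsWithin] with δ hδ
        have hδ' : (0 : ℝ) < δ := hδ
        rw [← Vale.Agent.P299.H882.J_const_mul]
        refine INT.intX_mono (h.dens ν hδ) ?_ fun e x hx => ?_
        · refine Vale.Agent.P299.H882.J_dens (f := fun x => C * (δ / (ρ x + δ) * 1)) hχH ?_
          refine continuous_const.mul ((continuous_const.div (hρc.add continuous_const)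
            fun x => ?_).mul continuous_const)
          have h4 : 0 < ρ x + δ := by
            have := hρ0 x
            linarith
          exact h4.ne'
        · have := hC δ hδ' e x hx
          rw [hx.left_inv]
          simp only [mul_one]
          exact this
  obtain ⟨C₁, hC₁⟩ := le_of_coeff_zero hcoef
  refine ⟨C₁, fun s hs => ?_⟩
  have h1 := hC₁ s hs
  rwa [hT0] at h1

end Vale.Agent.P281.H368.MFS
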