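import Vale.Agent.P281.H368.MFS.Iface

/-! P281, theorem MFS: the final statement from the two assemblies. -/

open scoped Manifold ContDiff Topology ComplexOrder
open Set Filter Vale.Agent.P281 Vale.Agent.P272.K Vale.Agent.P299

noncomputable section

namespace Vale.Agent.P281.H368.MFS

open Vale.Agent.P281.H713

section

variable {E : Type} [NormedAddCommGroup E] [NormedSpace ℂ E] {X : Type} [TopologicalSpace X]
  [ChartedSpace E X]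

/-- the Kodaira dimension is `-∞` if all sections vanish -/
theorem kod_eq_bot {ι : Type} {eqn : ι → X → (X → ℂ) → Prop} {c : ι → ℝ}
    (h : ∀ (m : ℕ) (k : ι → ℕ) (s : X → ℂ) (z : X), 0 < m → (∀ i, (k i : ℝ) = m * c i) →
      J.IsSection E eqn m k s → (∀ i, k i ≠ 0 → ∃ g, eqn i z g ∧ g z ≠ 0) → s z = 0) :
    J.kod E eqn c = ⊥ := by
  rw [J.kod, eq_bot_iff]
  refine iSup_le fun l => iSup_le ?_
  rintro ⟨m, k, s, z, h1, h2, h3, h4, h5, -⟩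
  exact absurd (h m k (s 0) z h1 h2 (h3 0) h4) h5

end

/-- **Theorem MFS** from the assemblies on `X` and on `F`. -/
theorem mainPartM_of (hker : KerPartM) (hfib : FibPartM) : MainPartM := by
  intro n p d hn X Z Y F _ _ _ _ _ _ _ _ _ _ _ _ _ _ _ _ _ _ _ _ χ hχ Δ hΔ hΔ1 m hm k hk α θ hα
    hθ hαd ν hν hθν hθd W hW j hj f hf i hi hiΔ hαF νF hνF hF
  rw [WithBot.add_eq_bot, or_iff_not_imp_right]
  intro hne
  -- a pull-back section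
  obtain ⟨m', K₀, 𝒢, σ, y, h1, h2, h3, h4, h5, h6, h7⟩ : ∃ (m' : ℕ) (K₀ : Set X → ℕ)
      (𝒢 : Set (Set Y)) (σ : Y → ℂ) (y : Y), 0 < m' ∧ (∀ D, (K₀ D : ℝ) ≤ m' * Δ D) ∧ 𝒢.Finite ∧
      (∀ G ∈ 𝒢, J.IsPrime (Cm p) G) ∧
      TL.IsPullSection (n := n) (p := p) m' K₀ 𝒢 j f σ ∧ (∀ G ∈ 𝒢, y ∉ G) ∧ σ y ≠ 0 := by
    by_contra hcon
    apply hne
    rw [TL.kodF, eq_bot_iff]
    refine iSup_le fun l => iSup_le ?_
    rintro ⟨m', K₀, 𝒢, σ, y, h1, h2, h3, h4, h5, h6, h7, -⟩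
    exact absurd ⟨m', K₀, 𝒢, σ 0, y, h1, h2, h3, h4, h5 0, h6, h7⟩ hcon
  obtain ⟨t₀⟩ : Nonempty F := inferInstance
  have hK := hker n p X Z Y χ hχ Δ hΔ hΔ1 m hm k hk α θ hα hθ hαd ν hθν hθd W hW j hj f hf
    ⟨i t₀, hi.submersive t₀⟩ 𝒢 h3 h4 m' h1 K₀ h2 σ h5 ⟨y, h6, h7⟩
  refine kod_eq_bot fun m₁ k₁ s t hm₁ hk₁ hs ht => ?_
  exact hfib n p d hn X Z Y F χ hχ Δ hΔ m hm k hk α θ hα hθ ν hν hθν W j hj f hf i hi hiΔ hαF νF
    hνF hF hK m₁ hm₁ k₁ hk₁ s hs t ht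

end Vale.Agent.P281.H368.MFS
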